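import Vale.Agent.P300LB.Pos
import Vale.Agent.P300L.Su
import Vale.Agent.P300LD.Deep

/-!
# P300LB: the block POS
-/

open scoped ContDiff Topology
open Set Filter
open Vale.Agent.P272.K (Cm)
open Vale.Agent.P277Z.Val.KP Vale.Agent.P284Y.Lib
open Vale.Agent.P298.H265 (nv nv_pos contDiffAt_nv)
open Vale.Agent.P288.BQ Vale.Agent.P288.X11 Vale.Agent.P300LG Vale.Agent.P300LD

noncomputable section

namespace Vale.Agent.P300LB

theorem nq_eq : nq = fun z : Cm 2 => nv z := funext fun z => by simp [nq, nv]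

theorem ball_pos {ε : ℝ} {z : Cm 2} (h : nq z < ε) : Pos (fun z => -Real.log (ε - nq z)) z := by
  intro w hw
  have a := sub_pos.2 h
  rw [levi_comp (u := nq) (χ := fun t => -Real.log (ε - t)) (χ' := fun t => (ε - t)⁻¹)
    (b := (ε - nq z)⁻¹ ^ 2) (nq_eq ▸ contDiffAt_nv contDiffAt_id)
    ((gt_mem_nhds h).mono fun t ht => by
      simpa [neg_div] using (((hasDerivAt_id t).const_sub ε).log (sub_pos.2 ht).ne').fun_neg)
    (by simpa [neg_div] using ((hasDerivAt_id (nq z)).const_sub ε).fun_inv a.ne'),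
    congrArg (P284Z.levi · z w) nq_eq, levi_nv (H := fun z => z) analyticAt_id, fderiv_fun_id]
  exact add_pos_of_pos_of_nonneg (mul_pos (inv_pos.2 a) (mul_pos four_pos (nv_pos hw)))
    (mul_nonneg (sq_nonneg _) gsq_nonneg)

theorem aut_an (m : Matrix (Fin 3) (Fin 3) ℂ) (z : Cm 2) : AnalyticAt ℂ (aut m) z := by
  rw [show aut m = fun z : Cm 2 => m 0 0 + (m 0 1 * z 0 + m 0 2 * z 1) from funext fun z => by
    simp [aut, vec, Matrix.mulVec, dotProduct, Fin.sum_univ_succ]]
  have := analyticAt_pi_iff.1 (analyticAt_id (𝕜 := ℂ) (z := z))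
  exact analyticAt_const.add ((analyticAt_const.mul (this 0)).add (analyticAt_const.mul (this 1)))

theorem pos : P300L.POS := fun D A G _ B _ M => by
  have o : ∀ x ∈ D.Om, nq x < A.ε := fun x hx => by rwa [A.om] at hx
  refine Aut.posX (φ := fun z => -Real.log (A.ε - nq z)) (J := fun g => aut (M.m g))
    ⟨fun x hx => ((contDiffAt_const.sub (nq_eq ▸ contDiffAt_nv contDiffAt_id)).log
      (sub_pos.2 (o x hx)).ne').neg, fun x hx => ball_pos (o x hx),
    fun g x hx => ⟨aut_an _ _, aut_ne (M.uni g) (o x hx)⟩, fun g g' x hx => ?_, fun g x hx => ?_⟩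
  · rw [M.mul, M.a_eq _ _ hx]
    exact aut_mul' (e_pos (o x hx)) hk1 _ (M.uni g') (mem_ball.2 (o x hx))
  · rw [M.a_eq _ _ hx, nq_act (M.uni g) (o x hx), Real.log_mul (pow_ne_zero _ (norm_ne_zero_iff.2
      (aut_ne (M.uni g) (o x hx)))) (sub_pos.2 (act_lt (M.uni g) (o x hx))).ne']
    ring

end Vale.Agent.P300LB
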