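import Vale.Agent.P300LB.Tw

/-!
# P300LB: the local computation
-/

open scoped Manifold ContDiff Topology
open Set Filter Function Real
open Vale.Agent.P272.K
open Vale.Agent.P277Z (Spsh)
open Vale.Agent.P277Z.Val.KP
open Vale.Agent.P284Z (levi)
open Vale.Agent.P284Y.Lib
open Vale.Agent.P298.H265 (nv pot nv_pos nv_nonneg)
open Vale.Agent.P300LX (Im)

noncomputable section

namespace Vale.Agent.P300LB

variable {n M : ℕ} {ι : Type} {κ : ι → Type} [∀ i, Fintype (κ i)] {Θ : ι → Cm M → ℝ}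
  {v : Cm M → ℝ} {j : ι} {l : κ j}

theorem pos_congr {u u' : Cm n → ℝ} {z : Cm n} (h : Pos u z) (e : u' =ᶠ[𝓝 z] u) : Pos u' z :=
  fun w hw => levi_congr e ▸ h w hw

theorem loc0 (s : Finset ι) {Γ : Cm n → Cm M} {S : ∀ i, Cm n → κ i → ℂ} {z : Cm n}
    (hΓ : AnalyticAt ℂ Γ z) (hΘ : ∀ i ∈ s, Sw (Θ i) (Γ z))
    (hS : ∀ i ∈ s, AnalyticAt ℂ (S i) z ∧ S i z ≠ 0) (hv : Sw v (Γ z)) (hv' : Pos v (Γ z))
    (hj : j ∈ s) (h0 : Θ j (Γ z) ≠ 0) (hl : S j z l ≠ 0)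
    (hi : Im (fun y => (Γ y, fun m => S j y m / S j y l)) z) :
    ∃ N₀ : ℝ, ∀ᶠ y in 𝓝 z, ∀ N, N₀ ≤ N →
      ContDiffAt ℝ ∞ (fun y => log (∑ i ∈ s, Θ i (Γ y) ^ 2 * nv (S i y)) + N * v (Γ y)) y ∧
        Pos (fun y => log (∑ i ∈ s, Θ i (Γ y) ^ 2 * nv (S i y)) + N * v (Γ y)) y := by
  have a1 := an_ratio (hS j hj).1 hl
  have b1 : ∀ i ∈ s, Sw (fun y => Θ i (Γ y)) z := fun i hi => (hΘ i hi).comp hΓ
  have b2 : ∀ i ∈ s, Sw (pot (S i)) z := fun i hi => sw_pot (hS i hi).1 (hS i hi).2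
  have b0 : (fun y => log (∑ i ∈ s, Θ i (Γ y) ^ 2 * nv (S i y))) =ᶠ[𝓝 z]
      fun y => log (∑ i ∈ s, Θ i (Γ y) ^ 2 * exp (pot (S i) y)) := by
    filter_upwards [(eventually_all_finset s).2 fun i hi =>
      (hS i hi).1.continuousAt.eventually_ne (hS i hi).2] with y e
    exact congrArg log (Finset.sum_congr rfl fun i hi => by rw [pot, exp_log (nv_pos (e i hi))])
  have b3 : Sw (fun y => log (∑ i ∈ s, Θ i (Γ y) ^ 2 * nv (S i y))) z := by
    filter_upwards [(eventually_all_finset s).2 b1, (eventually_all_finset s).2 b2,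
      (b1 j hj).two.continuousAt.eventually_ne h0, b0.eventually_nhds] with y e1 e2 e3 e4
    exact ((ContDiffAt.sum fun i hi => ((e1 i hi).pow 2).mul (e2 i hi).exp).log
      (Finset.sum_pos' (fun _ _ => by positivity)
        ⟨j, hj, by positivity⟩).ne').congr_of_eventuallyEq e4
  have b5 := hv.comp hΓ
  obtain ⟨N₀, hN⟩ := exists_N b3.two b5.two
    (fun w => by rw [levi_hol hΓ hv.two]; exact hv'.nonneg _) fun w hw e => by
      rw [levi_hol hΓ hv.two] at e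
      have e1 : fderiv ℂ Γ z w = 0 := by_contra fun k => (hv' _ k).ne' e
      rw [levi_congr b0]
      refine (glue0 (w := w) s (θ := fun i y => Θ i (Γ y)) (b := fun i => pot (S i))
        (fun i hi => ⟨(b1 i hi).two, by rw [levi_hol hΓ (hΘ i hi).two, e1, levi_zero], by
          rw [gsq_hol hΓ.differentiableAt ((hΘ i hi).two.differentiableAt two_ne_zero), e1]
          simp [gsq]⟩) (fun i hi => ⟨(b2 i hi).two,
          let ⟨m, hm⟩ := ne_iff.1 (hS i hi).2; (fs (hS i hi).1 hm).1⟩) hj h0).2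
        ((fs (hS j hj).1 hl).2 fun k => hw (hi.2 ?_))
      rw [hΓ.differentiableAt.fderiv_prodMk a1.differentiableAt, map_zero]
      exact Prod.ext e1 k
  refine ⟨N₀, ?_⟩
  filter_upwards [b3, b5, hN.ev (b3.add (b5.const_mul N₀)).two, hΓ.eventually_analyticAt,
    hΓ.continuousAt.eventually ((hv'.ev hv.two).and hv)] with y c1 c2 c3 c4 c5 N hN
  refine ⟨c1.add (contDiffAt_const.mul c2), fun w hw => ?_⟩
  have := c3 w hw
  have c6 := c2.of_le two_le_inf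
  rw [levi_add (c1.of_le two_le_inf) (contDiffAt_const.mul c6), levi_const_mul c6] at this ⊢
  have c7 : 0 ≤ levi (fun y => v (Γ y)) y w := by
    rw [levi_hol c4 (c5.2.of_le two_le_inf)]
    exact c5.1.nonneg _
  linarith [mul_le_mul_of_nonneg_right hN c7]

/-- the glued potential of Fubini and Study plus a large multiple of the potential of the base -/
theorem loc {Y : Type} [TopologicalSpace Y] [ChartedSpace (Cm n) Y] [IsManifold 𝓘(ℂ, Cm n) ω Y]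
    (s : Finset ι) {Γ : Y → Cm M} {S : ∀ i, Y → κ i → ℂ} {x : Y} {e : Chart n Y} (he : At e x)
    (hΓ : AnalyticAt ℂ (fun z => Γ (e.symm z)) (e x)) (hΘ : ∀ i ∈ s, Sw (Θ i) (Γ x))
    (hS : ∀ i ∈ s, (∀ᶠ a in 𝓝 (Γ x), Θ i a = 0) ∨
      AnalyticAt ℂ (fun z => S i (e.symm z)) (e x) ∧ S i x ≠ 0)
    (hv : Sw v (Γ x)) (hv' : Pos v (Γ x)) (hj : j ∈ s) (h0 : Θ j (Γ x) ≠ 0) (hl : S j x l ≠ 0)
    (hi : Im (fun z => (Γ (e.symm z), fun m => S j (e.symm z) m / S j (e.symm z) l)) (e x)) :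
    ∃ N₀ : ℝ, ∀ᶠ y in 𝓝 x, 0 < ∑ i ∈ s, Θ i (Γ y) ^ 2 * nv (S i y) ∧ ∀ N, N₀ ≤ N →
      Spsh n (fun y => log (∑ i ∈ s, Θ i (Γ y) ^ 2 * nv (S i y)) + N * v (Γ y)) y := by
  classical
  have k := he.left_inv
  have t := e.continuousAt he.2
  rw [← k] at hΘ hS hv hv' h0 hl
  set s' := s.filter fun i => ¬ ∀ᶠ a in 𝓝 (Γ (e.symm (e x))), Θ i a = 0
  have hS' : ∀ i ∈ s', AnalyticAt ℂ (fun z => S i (e.symm z)) (e x) ∧ S i (e.symm (e x)) ≠ 0 :=
    fun i hi => by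
      have := (hS i (Finset.mem_filter.1 hi).1).resolve_left (Finset.mem_filter.1 hi).2
      rwa [k] at this ⊢
  have hj' : j ∈ s' := Finset.mem_filter.2 ⟨hj, fun a => h0 a.self_of_nhds⟩
  obtain ⟨N₀, h⟩ := loc0 s' (Γ := fun z => Γ (e.symm z)) (S := fun i z => S i (e.symm z)) hΓ
    (fun i hi => hΘ i (Finset.mem_filter.1 hi).1) hS' hv hv' hj' h0 hl hi
  have a : ∀ᶠ z in 𝓝 (e x), ∑ i ∈ s, Θ i (Γ (e.symm z)) ^ 2 * nv (S i (e.symm z)) =
      ∑ i ∈ s', Θ i (Γ (e.symm z)) ^ 2 * nv (S i (e.symm z)) := by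
    filter_upwards [(eventually_all_finset (s \ s')).2 fun i hi => hΓ.continuousAt.eventually
      (p := fun a => Θ i a = 0) (by_contra fun c => (Finset.mem_sdiff.1 hi).2
        (Finset.mem_filter.2 ⟨(Finset.mem_sdiff.1 hi).1, c⟩))] with z hz
    exact (Finset.sum_subset (Finset.filter_subset _ _) fun i a b => by
      simp [hz i (Finset.mem_sdiff.2 ⟨a, b⟩)]).symm
  have b : ∀ᶠ z in 𝓝 (e x), 0 < ∑ i ∈ s, Θ i (Γ (e.symm z)) ^ 2 * nv (S i (e.symm z)) := by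
    filter_upwards [((hΘ j hj).comp hΓ).two.continuousAt.eventually_ne h0,
      (hS' j hj').1.continuousAt.eventually_ne (hS' j hj').2] with z c d
    exact Finset.sum_pos' (fun _ _ => mul_nonneg (sq_nonneg _) (nv_nonneg _))
      ⟨j, hj, mul_pos (sq_pos_of_ne_zero c) (nv_pos d)⟩
  refine ⟨N₀, ?_⟩
  filter_upwards [t.eventually h, t.eventually a.eventually_nhds, t.eventually b,
    e.open_source.mem_nhds he.2] with y c1 c2 c3 c4
  rw [e.left_inv c4] at c3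
  refine ⟨c3, fun N hN => spsh_chart ⟨he.1, c4⟩ ((c1 N hN).1.congr_of_eventuallyEq ?_)
    (pos_congr (c1 N hN).2 ?_)⟩
  all_goals exact c2.mono fun z hz => by simp only [hz]

end Vale.Agent.P300LB
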