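import Vale.Agent.P300LB.Loc
import Vale.Agent.P300LX.Quo
import Mathlib.Analysis.Calculus.BumpFunction.FiniteDimension

/-!
# P300LB: a positive line bundle on the quotient of the resolved double cover
-/

open scoped Manifold ContDiff Topology
open Set Filter Function
open Real (log log_mul log_pow)
open Vale.Agent.P272.K Vale.Agent.P285.H281.FD
open Vale.Agent.P277Z (Hol Spsh)
open Vale.Agent.P277Z.Val.KP
open Vale.Agent.P298.H265 (nv nv_pos nv_nonneg nv_smul)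
open Vale.Agent.P300LX Vale.Agent.P300LX.Dat

noncomputable section

namespace Vale.Agent.P300LB

/-- the vector `(v ⊗ … ⊗ v, c)` -/
def tens (k : ℕ) (v : Cm 2) (c : ℂ) (o : Option (Fin k → Fin 2)) : ℂ :=
  o.elim c fun I => ∏ a, v (I a)

theorem tens_smul (k : ℕ) (t : ℂ) (v : Cm 2) (c : ℂ) :
    tens k (t • v) (t ^ k * c) = t ^ k • tens k v c :=
  funext fun o => by cases o <;> simp [tens, Finset.prod_mul_distrib]

theorem tens_an {A : Type} [NormedAddCommGroup A] [NormedSpace ℂ A] {z : A} (k : ℕ) {v : A → Cm 2}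
    {c : A → ℂ} (hv : AnalyticAt ℂ v z) (hc : AnalyticAt ℂ c z) :
    AnalyticAt ℂ (fun a => tens k (v a) (c a)) z :=
  analyticAt_pi_iff.2 fun o => by
    rcases o with _ | I
    exacts [hc, Finset.analyticAt_fun_prod Finset.univ fun a _ => analyticAt_pi_iff.1 hv (I a)]

theorem tens_ex {k : ℕ} {v : Cm 2} (h : k = 0 ∨ v ≠ 0) : ∃ I : Fin k → Fin 2, ∏ a, v (I a) ≠ 0 := by
  rcases h with rfl | h
  · exact ⟨default, by simp⟩
  · obtain ⟨b, hb⟩ := ne_iff.1 h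
    exact ⟨fun _ => b, Finset.prod_ne_zero_iff.2 fun _ _ => hb⟩

theorem tens_ne {k : ℕ} {v : Cm 2} (h : k = 0 ∨ v ≠ 0) (c : ℂ) : tens k v c ≠ 0 :=
  let ⟨I, hI⟩ := tens_ex h
  fun e => hI (congrFun e (some I))

theorem tens_cst (k : ℕ) {v : Cm 2} {a : Fin 2} (h : v a ≠ 0) (c : ℂ) :
    tens k v c (some fun _ => a) ≠ 0 :=
  (Finset.prod_ne_zero_iff (s := Finset.univ) (f := fun _ : Fin k => v a)).2 fun _ _ => h

theorem tens_upd {k : ℕ} (i : Fin k) {v : Cm 2} {a : Fin 2} (h : v a ≠ 0) (b : Fin 2) (c : ℂ) :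
    tens k v c (some (update (fun _ => a) i b)) / tens k v c (some fun _ => a) = (v a)⁻¹ * v b := by
  have e : ∀ b, ∏ x, v (update (fun _ => a) i b x) = v b * ∏ _x ∈ Finset.univ \ {i}, v a :=
    fun b => by
      simp only [apply_update (fun _ => v) (fun _ : Fin k => a) i b]
      exact Finset.prod_update_of_mem (Finset.mem_univ i) _ _
  have e' := e a
  rw [update_eq_self] at e'
  simp only [tens, Option.elim]
  rw [e, e', mul_div_mul_right _ _ (Finset.prod_ne_zero_iff.2 fun _ _ => h), div_eq_inv_mul]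

variable {D : Dat} {G : Type} [Group G] {B : Act D G}

/-- a positive automorphic line bundle on the base -/
structure Aut (B : Act D G) (φ : Cm 2 → ℝ) (J : G → Cm 2 → ℂ) : Prop where
  sm : ∀ x ∈ D.Om, ContDiffAt ℝ ∞ φ x
  pos : ∀ x ∈ D.Om, Pos φ x
  an : ∀ g, ∀ x ∈ D.Om, AnalyticAt ℂ (J g) x ∧ J g x ≠ 0
  mul : ∀ g g', ∀ x ∈ D.Om, J (g * g') x = J g (B.a g' x) * J g' x
  eq : ∀ g, ∀ x ∈ D.Om, φ (B.a g x) = φ x + log (‖J g x‖ ^ 2)

open Classical in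
/-- the multiplicity -/
def kk (D : Dat) (p : Cm 2) : ℕ := if p ∈ D.S then D.k p else 0

/-- generators of the ideal at `p` -/
def sg (p : Cm 2) (y : D.Xh) : Option (Fin (kk D p) → Fin 2) → ℂ := tens (kk D p) (π y - p) (w y)

theorem kk_eq (p : D.S) : kk D p = D.k p := if_pos p.2

theorem sg_rep {p : D.S} {y : D.Xh} {q : E3} (h : Rep p y q) :
    sg p y = q.1.1 ^ D.k p • tens (kk D p) q.1.2 q.2 := by
  rw [sg, h.π, h.w', bd, add_sub_cancel_left, ← kk_eq, tens_smul]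

/-- cut off functions -/
structure Cut (D : Dat) (K : Set (Cm 2)) (T : Finset (Cm 2)) (Θ : Cm 2 → Cm 2 → ℝ) : Prop where
  sm : ∀ p ∈ T, ContDiff ℝ ∞ (Θ p)
  cpt : ∀ p ∈ T, IsCompact (tsupport (Θ p))
  sub : ∀ p ∈ T, ∀ x ∈ tsupport (Θ p), x ∈ D.Om ∧ (x ∈ D.S → x = p)
  cov : ∀ x ∈ K, ∃ p ∈ T, Θ p x ≠ 0

theorem ex_cut {K : Set (Cm 2)} (hK : IsCompact K) (h : K ⊆ D.Om) : ∃ T Θ, Cut D K T Θ := by
  choose! Θ h1 h2 h3 _ h4 using fun p (hp : p ∈ K) => exists_contDiff_tsupport_subset (n := ⊤)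
    ((D.isOpen_near p).mem_nhds ⟨h hp, fun _ => rfl⟩)
  obtain ⟨T, a, b⟩ := hK.elim_nhds_subcover (fun p => {x | Θ p x ≠ 0}) fun p hp =>
    (h3 p hp).continuous.continuousAt.eventually_ne (h4 p hp ▸ one_ne_zero)
  exact ⟨T, Θ, fun p hp => h3 p (a p hp), fun p hp => h2 p (a p hp), fun p hp => h1 p (a p hp),
    fun x hx => by simpa using b hx⟩

variable (B) in
/-- the invariant weight -/
def wt (T : Finset (Cm 2)) (Θ : Cm 2 → Cm 2 → ℝ) (y : D.Xh) : ℝ :=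
  ∑ᶠ g, ∑ p ∈ T, Θ p (B.a g (π y)) ^ 2 * nv (sg p (B.sm g y))

variable {K : Set (Cm 2)} {T : Finset (Cm 2)} {Θ : Cm 2 → Cm 2 → ℝ} {φ : Cm 2 → ℝ}
  {J : G → Cm 2 → ℂ}

theorem wt_sm (g : G) (y : D.Xh) : wt B T Θ (B.sm g y) = wt B T Θ y := by
  rw [wt, wt, ← finsum_comp_equiv (Equiv.mulRight g)
    (f := fun g => ∑ p ∈ T, Θ p (B.a g (π y)) ^ 2 * nv (sg p (B.sm g y)))]
  simp only [Equiv.coe_mulRight, B.sm_mul, B.mul _ _ _ (π_mem y), B.π_sm]

theorem wt_loc (C : Cut D K T Θ) (y₀ : D.Xh) : ∃ s : Finset G, 1 ∈ s ∧ ∀ᶠ y in 𝓝 y₀,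
    wt B T Θ y = ∑ i ∈ s ×ˢ T, Θ i.2 (B.a i.1 (π y)) ^ 2 * nv (sg i.2 (B.sm i.1 y)) := by
  obtain ⟨L, a, b, c⟩ := local_compact_nhds (D.op.mem_nhds (π_mem y₀))
  have f := B.proper (L ∪ ⋃ p ∈ T, tsupport (Θ p)) (union_subset b
    (iUnion₂_subset fun p hp x hx => (C.sub p hp x hx).1)) (c.union (T.isCompact_biUnion C.cpt))
  refine ⟨f.toFinset, f.mem_toFinset.2 ⟨_, .inl (mem_of_mem_nhds a), .inl ?_⟩, ?_⟩
  · rw [B.one _ (π_mem y₀)]
    exact mem_of_mem_nhds a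
  filter_upwards [cont_π.continuousAt.eventually a] with y hy
  rw [Finset.sum_product]
  refine finsum_eq_sum_of_support_subset _ fun g hg => f.mem_toFinset.2 ⟨_, .inl hy, .inr ?_⟩
  obtain ⟨p, hp, k⟩ := Finset.exists_ne_zero_of_sum_ne_zero hg
  exact mem_biUnion hp (subset_tsupport _ fun e => k (by simp [show Θ p _ = 0 from e]))

/-- the local form of the weight -/
theorem wt_form (C : Cut D K T Θ) (A : Aut B φ J) {y₀ : D.Xh} {τ : D.Xh → ℂ}
    {S : ∀ i : G × Cm 2, D.Xh → Option (Fin (kk D i.2) → Fin 2) → ℂ} {e : Chart 2 D.Xh}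
    (he : At e y₀) (hτ : ∀ᶠ y in 𝓝 y₀, Hol 2 τ y ∧ (τ y ≠ 0 ↔ π y ∉ D.S))
    (hS : ∀ i : G × Cm 2, i.2 ∈ T → B.a i.1 (π y₀) ∈ tsupport (Θ i.2) →
      (AnalyticAt ℂ (fun z => S i (e.symm z)) (e y₀) ∧ S i y₀ ≠ 0) ∧
        ∀ᶠ y in 𝓝 y₀, sg i.2 (B.sm i.1 y) = τ y • S i y)
    {p : Cm 2} (hp : p ∈ T) (h0 : Θ p (π y₀) ≠ 0) {l} (hl : S (1, p) y₀ l ≠ 0)
    (hi : Im (fun z => (π (e.symm z), fun m => S (1, p) (e.symm z) m / S (1, p) (e.symm z) l))
      (e y₀)) :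
    ∃ N₀ : ℝ, ∀ᶠ y₁ in 𝓝 y₀, ∀ N, N₀ ≤ N → ∃ (τ : D.Xh → ℂ) (ψ : D.Xh → ℝ), ∀ᶠ y in 𝓝 y₁,
      Hol 2 τ y ∧ Spsh 2 ψ y ∧ (τ y ≠ 0 ↔ π y ∉ D.S) ∧
        (π y ∉ D.S → log (wt B T Θ y) + N * φ (π y) = ψ y + log (‖τ y‖ ^ 2)) := by
  obtain ⟨s, s1, s2⟩ := wt_loc (B := B) C y₀
  have m := π_mem y₀
  have z : ∀ i : G × Cm 2, B.a i.1 (π y₀) ∉ tsupport (Θ i.2) →
      ∀ᶠ x in 𝓝 (π y₀), Θ i.2 (B.a i.1 x) = 0 := fun i k =>
    (B.an _ _ m).continuousAt.eventually (notMem_tsupport_iff_eventuallyEq.1 k)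
  obtain ⟨N₀, h⟩ := loc (s ×ˢ T) (Θ := fun i x => Θ i.2 (B.a i.1 x)) (S := S) (v := φ) he (an_π he)
    (fun i hi => (an_sm (B.an i.1 _ m)).mono fun x k =>
      (C.sm _ (Finset.mem_product.1 hi).2).contDiffAt.comp x k)
    (fun i hi => (em _).imp (z i) fun k => (hS i (Finset.mem_product.1 hi).2 (not_not.1 k)).1)
    ((D.op.eventually_mem m).mono A.sm) (A.pos _ m) (j := (1, p)) (Finset.mk_mem_product s1 hp)
    (by rwa [B.one _ m]) hl hi
  have a : ∀ᶠ y in 𝓝 y₀, ∀ i ∈ s ×ˢ T, Θ i.2 (B.a i.1 (π y)) ^ 2 * nv (sg i.2 (B.sm i.1 y)) =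
      ‖τ y‖ ^ 2 * (Θ i.2 (B.a i.1 (π y)) ^ 2 * nv (S i y)) := by
    refine (eventually_all_finset _).2 fun i hi => ?_
    by_cases k : B.a i.1 (π y₀) ∈ tsupport (Θ i.2)
    · filter_upwards [(hS i (Finset.mem_product.1 hi).2 k).2] with y hy
      rw [hy, nv_smul, mul_left_comm]
    · filter_upwards [cont_π.continuousAt.eventually (z i k)] with y hy
      simp [hy]
  refine ⟨N₀, ((h.and hτ).and (s2.and a)).eventually_nhds.mono fun y₁ k N hN =>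
    ⟨τ, _, k.mono fun y k => ⟨k.1.2.1, k.1.1.2 N hN, k.1.2.2, fun hy => ?_⟩⟩⟩
  rw [k.2.1, Finset.sum_congr rfl k.2.2, ← Finset.mul_sum,
    log_mul (pow_ne_zero _ (norm_ne_zero_iff.2 (k.1.2.2.2 hy))) k.1.1.1.ne']
  ring

theorem wt_pos (C : Cut D K T Θ) (A : Aut B φ J) {y₀ : D.Xh} (hy : π y₀ ∈ K) :
    ∃ N₀ : ℝ, ∀ᶠ y₁ in 𝓝 y₀, ∀ N, N₀ ≤ N → ∃ (τ : D.Xh → ℂ) (ψ : D.Xh → ℝ), ∀ᶠ y in 𝓝 y₁,
      Hol 2 τ y ∧ Spsh 2 ψ y ∧ (τ y ≠ 0 ↔ π y ∉ D.S) ∧
        (π y ∉ D.S → log (wt B T Θ y) + N * φ (π y) = ψ y + log (‖τ y‖ ^ 2)) := by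
  obtain ⟨p, hp, h0⟩ := C.cov _ hy
  have he := at_chartAt y₀
  set e := chartAt (Cm 2) y₀
  have t := P277Z.Slc.tendsto_symm he
  by_cases h : π y₀ ∈ D.S
  · obtain ⟨a, ha⟩ := ex_O (p := ⟨π y₀, h⟩) (y := y₀) fun _ => rfl
    set q : D.S := ⟨π y₀, h⟩
    set l : Lf := ContinuousLinearMap.proj a
    have o := (isOpen_O q l).eventually_mem ha
    have r : ∀ g, ∀ y ∈ O q l, Rep (B.gp g q) (B.sm g y) (B.tq g q (crd q l y)) := fun g y k =>
      B.rep_sm g (rep_crd k)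
    have an : ∀ g k, AnalyticAt ℂ (fun z => tens k (B.tq g q (crd q l (e.symm z))).1.2
        (B.tq g q (crd q l (e.symm z))).2) (e y₀) := fun g k =>
      have := (B.tq_an g (rep_crd ha).cx).comp_of_eq (im_crd he ha).1 (by rw [he.left_inv])
      tens_an k (analyticAt_snd.comp (analyticAt_fst.comp this)) (analyticAt_snd.comp this)
    have e1 : B.gp 1 q = q := Subtype.ext (B.one _ (π_mem y₀))
    have r1 : ∀ y ∈ O q l, Rep q y (B.tq 1 q (crd q l y)) ∧ (B.tq 1 q (crd q l y)).1.2 a ≠ 0 :=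
      fun y k => by
        have := r 1 y k
        rw [e1, B.sm_one] at this
        exact ⟨this, (this.mem_O.1 k).2⟩
    obtain rfl : q = p := (C.sub p hp _ (subset_tsupport _ h0)).2 h
    have i : Fin (kk D q) := ⟨0, (kk_eq q).symm ▸ D.kpos _ h⟩
    refine wt_form C A (τ := fun y => (crd q l y).1.1 ^ D.k q)
      (S := fun i y => tens _ (B.tq i.1 q (crd q l y)).1.2 (B.tq i.1 q (crd q l y)).2) he
      (o.mono fun y k => ⟨fun c hc => (analyticAt_fst.comp (analyticAt_fst.comp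
        (im_crd hc k).1)).pow _, ?_⟩) (fun ⟨g, p⟩ a b => ?_) hp h0 (l := some fun _ => a)
      (tens_cst _ (r1 _ ha).2 _) ((im_crd he ha).of_comp
      (T := fun u => ((l (u.1 - q), fun b => u.2 (some (update (fun _ => a) i b))), u.2 none))
      ((an_π he).prod (an_ratio (an 1 _) ?_)) ?_ ?_)
    · rw [pow_ne_zero_iff (D.kpos _ h).ne', Ne, ← (rep_crd k).π_iff]
      exact ⟨fun a b => a (k.1 b), fun a b => a (b ▸ h)⟩
    · obtain rfl : (B.gp g q : Cm 2) = p := (C.sub p a _ b).2 (B.mapsS g _ h)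
      exact ⟨⟨an g _, tens_ne (.inr (r g _ ha).cx.1) _⟩,
        o.mono fun y k => (sg_rep (r g y k)).trans (by rw [B.k_gp]; rfl)⟩
    · rw [he.left_inv]
      exact tens_cst _ (r1 _ ha).2 _
    · exact (((l.analyticAt _).comp (analyticAt_fst.sub analyticAt_const)).prod
        (analyticAt_pi_iff.2 fun b => analyticAt_pi_iff.1 analyticAt_snd _)).prod
        (analyticAt_pi_iff.1 analyticAt_snd _)
    · filter_upwards [t.eventually o] with z k
      obtain ⟨k1, k2⟩ := r1 _ k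
      have k3 := k1.crd_eq (l := l) k2
      refine Prod.ext (Prod.ext rfl (funext fun b => ?_)) ?_
      · exact (congrFun (congrArg (·.1.2) k3) b).trans (tens_upd i k2 b _).symm
      · refine (congrArg (·.2) k3).trans ?_
        simp only [tens, Option.elim, Finset.prod_const, Finset.card_univ, Fintype.card_fin, kk_eq]
        rw [div_eq_inv_mul, ← inv_pow]
        rfl
  · have nz : ∀ g p, kk D p = 0 ∨ π (B.sm g y₀) - p ≠ 0 := fun g p => by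
      by_cases k : p ∈ D.S
      · exact .inr (sub_ne_zero.2 fun e => (B.sm_off g).2 h (e ▸ k))
      · exact .inl (if_neg k)
    have an : ∀ g p, AnalyticAt ℂ (fun z => sg p (B.sm g (e.symm z))) (e y₀) := fun g p =>
      have := (B.lan_sm g (at_lim he).toLan).off
      tens_an _ ((analyticAt_fst.comp this).sub analyticAt_const) (analyticAt_snd.comp this)
    obtain ⟨I, hI⟩ := tens_ex (nz 1 p)
    have hI' : sg p (B.sm 1 (e.symm (e y₀))) (some I) ≠ 0 := by rwa [he.left_inv]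
    refine wt_form C A (τ := fun _ => 1) (S := fun i y => sg i.2 (B.sm i.1 y)) he
      ((isOpen_offX.eventually_mem h).mono fun y k => ⟨fun _ _ => analyticAt_const, by simpa using k⟩)
      (fun i _ _ => ⟨⟨an _ _, tens_ne (nz _ _) _⟩, .of_forall fun _ => (one_smul _ _).symm⟩) hp h0
      (l := some I) hI ((im_F0 he h).of_comp
      (T := fun u => (u.1, u.2 none * ∏ a, (u.1 - p) (I a)))
      ((an_π he).prod (an_ratio (an 1 p) hI')) ?_ ?_)
    · exact analyticAt_fst.prod ((analyticAt_pi_iff.1 analyticAt_snd _).mul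
        (Finset.analyticAt_fun_prod _ fun a _ =>
          analyticAt_pi_iff.1 (analyticAt_fst.sub analyticAt_const) _))
    · filter_upwards [(analyticAt_pi_iff.1 (an 1 p) (some I)).continuousAt.eventually_ne hI']
        with z k
      rw [B.sm_one] at k ⊢
      exact Prod.ext rfl (div_mul_cancel₀ _ k).symm

/-- The quotient of the resolved double cover has a positive line bundle. -/
theorem pos_X {X : Type} [TopologicalSpace X] [ChartedSpace (Cm 2) X] [IsManifold 𝓘(ℂ, Cm 2) ω X]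
    {p : D.Xh → X} (Q : Qt 2 p B.sm) (A : Aut B φ J) : ∃ H : Bd X, IsLB 2 H ∧ P281Z.Pos 2 H := by
  obtain ⟨K, k1, k2, k3⟩ := B.cocompact
  obtain ⟨T, Θ, C⟩ := ex_cut k2 k1
  obtain ⟨N, hN⟩ := (tendsto_natCast_atTop_atTop.eventually
    (unif (isCompact_pre k2 k1) fun y hy => wt_pos C A hy)).exists
  refine Q.pos dense_off (fun g y => (B.sm_off g).2) (J := fun g y => J g (π y) ^ N)
    (fun g y _ => ⟨fun e he => (((A.an g _ (π_mem y)).1.comp_of_eq (an_π he)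
      (by rw [he.left_inv])).pow N), pow_ne_zero _ (A.an g _ (π_mem y)).2⟩)
    (fun g g' y _ => by rw [A.mul _ _ _ (π_mem y), mul_pow, B.π_sm])
    (Φ := fun y => log (wt B T Θ y) + N * φ (π y)) (fun g y _ => ?_)
    fun y => (k3 _ (π_mem y)).imp fun g => hN (B.sm g y)
  rw [wt_sm, B.π_sm, A.eq _ _ (π_mem y), norm_pow, ← pow_mul, mul_comm N 2, pow_mul, log_pow _ N]
  ring

theorem qt (B : Act D G) : Qt 2 B.q B.sm :=
  ⟨B.q_diffeo, B.q_surj, fun _ _ => B.q_eq_iff, B.sm_one, B.sm_mul, fun _ _ => B.sm_free, B.cont_sm⟩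

theorem Aut.posX (A : Aut B φ J) : ∃ H : Bd B.X.X, IsLB 2 H ∧ P281Z.Pos 2 H := pos_X (qt B) A

end Vale.Agent.P300LB
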