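import Vale.Agent.P281Z.Defs
import Vale.Agent.P277Z.Slc.Div
import Vale.Agent.P277Z.Hl.Desc
import Vale.Agent.P277Z.Val.KahPA
import Vale.Agent.P300LX.Im
import Mathlib.Geometry.Manifold.LocalDiffeomorph

/-!
# P300LB: positive line bundles from singular weights
-/

open scoped Manifold ContDiff Topology ComplexOrder
open Set Filter Function
open Vale.Agent.P272.K Vale.Agent.P285.H281.FD
open Vale.Agent.P277Z (Hol Spsh Nz trans_an)
open Vale.Agent.P277Z.Slc (at_chartAt tendsto_symm)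
open Vale.Agent.P277Z.Slc.Dv Vale.Agent.P277Z.Val
open Vale.Agent.P284Y.Lib
open Vale.Agent.P300LX (Im)

set_option linter.unusedSectionVars false

noncomputable section

namespace Vale.Agent.P300LB

variable {n m : ℕ} {X Y : Type} [TopologicalSpace X] [ChartedSpace (Cm n) X] [TopologicalSpace Y]
  [ChartedSpace (Cm m) Y] {x : X} {u v : X → ℝ}

theorem spsh_cont (h : Spsh n u x) : ContinuousAt u x := by
  have he := at_chartAt (n := n) x
  exact ((h _ he).1.continuousAt.comp ((chartAt (Cm n) x).continuousAt he.2)).congr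
    (((chartAt (Cm n) x).eventually_left_inverse he.2).mono fun y hy => congrArg u hy)

theorem pos_comp {T : Cm n → Cm m} {f : Cm m → ℝ} {z : Cm n} (hT : Im T z)
    (hf : ContDiffAt ℝ 2 f (T z)) (hp : KP.Pos f (T z)) : KP.Pos (fun y => f (T y)) z :=
  fun w hw => by
    rw [levi_hol hT.1 hf]
    exact hp _ fun e => hw (hT.2 (e.trans (map_zero _).symm))

theorem spsh_of {T : X → Cm m} {f : Cm m → ℝ}
    (hT : ∀ e : Chart n X, At e x → Im (fun z => T (e.symm z)) (e x))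
    (hf : ContDiffAt ℝ ∞ f (T x)) (hp : KP.Pos f (T x)) (h : ∀ᶠ y in 𝓝 x, u y = f (T y)) :
    Spsh n u x := fun e he => by
  have h0 : (fun z => u (e.symm z)) =ᶠ[𝓝 (e x)] fun z => f (T (e.symm z)) :=
    (tendsto_symm he).eventually h
  rw [← he.left_inv] at hf hp
  have h1 : ContDiffAt ℝ ∞ (fun z => u (e.symm z)) (e x) :=
    (hf.comp (e x) (KP.an_sm (hT e he).1).self_of_nhds).congr_of_eventuallyEq h0
  refine ⟨h1, (KP.pos_iff (h1.of_le two_le_inf)).2 fun w hw => ?_⟩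
  rw [levi_congr h0]
  exact pos_comp (hT e he) (hf.of_le two_le_inf) hp w hw

variable [IsManifold 𝓘(ℂ, Cm n) ω X] [IsManifold 𝓘(ℂ, Cm m) ω Y]

theorem an_of {s : X → Y} (hs : ContMDiffAt 𝓘(ℂ, Cm n) 𝓘(ℂ, Cm m) ω s x) {e : Chart n X}
    {e' : Chart m Y} (he : At e x) (he' : At e' (s x)) :
    AnalyticAt ℂ (fun z => e' (s (e.symm z))) (e x) :=
  (contMDiffAt_iff_contDiffAt.1 (((chart_contMDiffAt he').comp x hs).comp_of_eq
    (chart_symm_contMDiffAt he.1 he.mem_target) he.left_inv)).analyticAt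

theorem hol_comp {s : X → Y} (hs : ContMDiffAt 𝓘(ℂ, Cm n) 𝓘(ℂ, Cm m) ω s x) {a : Y → ℂ}
    (ha : Hol m a (s x)) : Hol n (fun y => a (s y)) x := fun e he => by
  have he' := at_chartAt (n := m) (s x)
  refine (AnalyticAt.comp_of_eq (ha _ he') (an_of hs he he') (by rw [he.left_inv])).congr ?_
  filter_upwards [(hs.continuousAt.tendsto.comp (tendsto_symm he)).eventually
    ((chartAt (Cm m) (s x)).eventually_left_inverse he'.2)] with z hz using congrArg a hz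

/-- a holomorphic map with a holomorphic left inverse is an immersion -/
theorem im_of {s : X → Y} {p : Y → X} (hs : ContMDiffAt 𝓘(ℂ, Cm n) 𝓘(ℂ, Cm m) ω s x)
    (hp : ContMDiffAt 𝓘(ℂ, Cm m) 𝓘(ℂ, Cm n) ω p (s x)) (h : ∀ᶠ y in 𝓝 x, p (s y) = y)
    {e : Chart n X} {e' : Chart m Y} (he : At e x) (he' : At e' (s x)) :
    Im (fun z => e' (s (e.symm z))) (e x) := by
  refine Im.of_comp (g := id) (T := fun z => e (p (e'.symm z)))
    ⟨analyticAt_id, by simpa using injective_id⟩ (an_of hs he he') ?_ ?_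
  · rw [he.left_inv]
    exact an_of hp he' (by rwa [h.self_of_nhds])
  · filter_upwards [(hs.continuousAt.tendsto.comp (tendsto_symm he)).eventually
      (e'.eventually_left_inverse he'.2), (tendsto_symm he).eventually h, he.nhds_target]
      with z a b c
    rw [show e'.symm (e' (s (e.symm z))) = s (e.symm z) from a, b, e.right_inv c, id]

theorem spsh_map {s : X → Y} {p : Y → X} {f : Y → ℝ}
    (hs : ContMDiffAt 𝓘(ℂ, Cm n) 𝓘(ℂ, Cm m) ω s x)
    (hp : ContMDiffAt 𝓘(ℂ, Cm m) 𝓘(ℂ, Cm n) ω p (s x)) (h : ∀ᶠ y in 𝓝 x, p (s y) = y)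
    (hf : Spsh m f (s x)) : Spsh n (fun y => f (s y)) x :=
  have he' := at_chartAt (n := m) (s x)
  spsh_of (T := fun y => chartAt (Cm m) (s x) (s y)) (fun _ he => im_of hs hp h he he')
    (hf _ he').1 ((KP.pos_iff ((hf _ he').1.of_le two_le_inf)).1 (hf _ he').2)
    ((hs.continuousAt.eventually ((chartAt (Cm m) (s x)).eventually_left_inverse he'.2)).mono
      fun _ k => (congrArg f k).symm)

theorem spsh_chart {e : Chart n X} (he : At e x)
    (h : ContDiffAt ℝ ∞ (fun z => u (e.symm z)) (e x)) (hp : KP.Pos (fun z => u (e.symm z)) (e x)) :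
    Spsh n u x :=
  spsh_of (T := e) (fun _ he' => im_of (s := id) (p := id) contMDiffAt_id contMDiffAt_id
    (.of_forall fun _ => rfl) he' he) h hp
    ((e.eventually_left_inverse he.2).mono fun _ k => (congrArg u k).symm)

theorem sq_eq {a b : ℝ} {c : ℂ} (hc : c ≠ 0) (h : a = b + Real.log (‖c‖ ^ 2)) :
    ‖c‖ ^ 2 = Real.exp (a - b) := by
  rw [h, add_sub_cancel_left, Real.exp_log (pow_pos (norm_pos_iff.2 hc) 2)]

/-- a cocycle off a thin set which is matched by strictly plurisubharmonic weights -/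
theorem mkPos {D : Set X} (hD : Dense D)
    (hτ : ∀ x, ∃ τ, Hol n τ x ∧ ∀ᶠ y in 𝓝 x, τ y ≠ 0 ↔ y ∈ D) {ι : Type}
    {U : ι → Set X} (op : ∀ i, IsOpen (U i)) (cov : ∀ x, ∃ i, x ∈ U i) {ψ : ι → X → ℝ}
    (hψ : ∀ i, ∀ x ∈ U i, Spsh n (ψ i) x) {g : ι → ι → X → ℂ}
    (hg : ∀ i j, ∀ x ∈ D, x ∈ U i → x ∈ U j →
      Hol n (g i j) x ∧ g i j x ≠ 0 ∧ ψ i x = ψ j x + Real.log (‖g i j x‖ ^ 2))
    (hc : ∀ i j k, ∀ x ∈ D, x ∈ U i → x ∈ U j → x ∈ U k → g i j x * g j k x = g i k x) :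
    ∃ H : Bd X, IsLB n H ∧ P281Z.Pos n H := by
  have key : ∀ i j x, x ∈ U i → x ∈ U j → Hol n (ext D (g i j)) x ∧
      (∀ᶠ y in 𝓝 x, y ∈ D → ext D (g i j) y = g i j y) ∧
      ‖ext D (g i j) x‖ ^ 2 = Real.exp (ψ i x - ψ j x) := by
    intro i j x hi hj
    obtain ⟨τ, t1, t3⟩ := hτ x
    have t2 : Nz τ x := fun k => ((mem_closure_iff_frequently.1 (hD x)).and_eventually
      (k.and t3)).exists.elim fun _ k => k.2.2.2 k.1 k.2.1
    have c := ((spsh_cont (hψ i x hi)).sub (spsh_cont (hψ j x hj))).rexp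
    have a : ∀ᶠ y in 𝓝 x, y ∈ D → Hol n (g i j) y ∧ ‖g i j y‖ ^ 2 = Real.exp (ψ i y - ψ j y) := by
      filter_upwards [(op i).mem_nhds hi, (op j).mem_nhds hj] with y a b d
      exact ⟨(hg i j y d a b).1, sq_eq (hg i j y d a b).2.1 (hg i j y d a b).2.2⟩
    obtain ⟨b, b1, b2⟩ := P277Z.Hl.Ds.riem (f := g i j)
      (C := Real.exp (ψ i x - ψ j x) + 1 + 1) t1 t2 (by
        filter_upwards [a, t3, c.eventually (gt_mem_nhds (lt_add_one _))] with y a b d k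
        refine ⟨(a (b.1 k)).1, ?_⟩
        have := (a (b.1 k)).2.trans_lt d
        simp only [Pi.sub_apply] at this
        nlinarith [sq_nonneg (‖g i j y‖ - 1), norm_nonneg (g i j y)])
    have b3 : ∀ᶠ y in 𝓝 x, y ∈ D → g i j y = b y :=
      (b2.and t3).mono fun _ k hy => (k.1 (k.2.2 hy)).symm
    have b4 := ext_eq hD b1 b3
    refine ⟨b1.congr b4, (b3.and b4).mono fun y k hy => k.2.symm.trans (k.1 hy).symm, ?_⟩
    rw [← b4.self_of_nhds]
    exact tendsto_nhds_unique_of_frequently_eq (b1.continuousAt'.norm.pow 2) c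
      (((mem_closure_iff_frequently.1 (hD x)).and_eventually (a.and b3)).mono fun y k =>
        (congrArg (‖·‖ ^ 2) (k.2.2 k.1)).symm.trans (k.2.1 k.1).2)
  have nz : ∀ i j x, x ∈ U i → x ∈ U j → ext D (g i j) x ≠ 0 := fun i j x hi hj e => by
    simpa [e, (Real.exp_pos _).ne] using (key i j x hi hj).2.2
  refine ⟨⟨ι, U, fun i j => ext D (g i j)⟩, ⟨op, cov,
    fun i j e x he hi hj => ((key i j x hi hj).1 e he).contDiffAt, nz, fun i j k x hi hj hk => ?_⟩,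
    ψ, ⟨fun i e x he hi => (hψ i x hi e he).1, fun i j x hi hj => ?_⟩,
    fun i e x he hi => (hψ i x hi e he).2⟩
  · refine eq_of_dense hD ((key i j x hi hj).1.continuousAt'.mul (key j k x hj hk).1.continuousAt')
      (key i k x hi hk).1.continuousAt' ?_
    filter_upwards [(key i j x hi hj).2.1, (key j k x hj hk).2.1, (key i k x hi hk).2.1,
      (op i).mem_nhds hi, (op j).mem_nhds hj, (op k).mem_nhds hk] with y a b c d e f hy
    rw [Pi.mul_apply, a hy, b hy, c hy, hc i j k y hy d e f]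
  · show ψ i x = ψ j x + Real.log (‖ext D (g i j) x‖ ^ 2)
    rw [(key i j x hi hj).2.2, Real.log_exp, add_sub_cancel]

/-- `p` is the quotient map of the free action `h` -/
structure Qt (n : ℕ) {X Y G : Type} [TopologicalSpace X] [ChartedSpace (Cm n) X]
    [TopologicalSpace Y] [ChartedSpace (Cm n) Y] [Group G] (p : Y → X) (h : G → Y → Y) : Prop where
  loc : IsLocalDiffeomorph 𝓘(ℂ, Cm n) 𝓘(ℂ, Cm n) ω p
  surj : Surjective p
  fib : ∀ y y', p y = p y' ↔ ∃ γ, h γ y = y'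
  one : ∀ y, h 1 y = y
  mul : ∀ γ δ y, h (γ * δ) y = h γ (h δ y)
  free : ∀ γ y, h γ y = y → γ = 1
  cont : ∀ γ, Continuous (h γ)

section quo

variable {Z G : Type} [TopologicalSpace Z] [ChartedSpace (Cm n) Z] [IsManifold 𝓘(ℂ, Cm n) ω Z]
  [Group G] {p : Z → X} {h : G → Z → Z}

open Classical in
/-- the element which maps `y` to `y'` -/
def el (h : G → Z → Z) (y y' : Z) : G := if k : ∃ γ, h γ y = y' then k.choose else 1

theorem Qt.el_eq (Q : Qt n p h) (γ : G) (y : Z) : el h y (h γ y) = γ := by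
  have k : ∃ δ, h δ y = h γ y := ⟨γ, rfl⟩
  rw [el, dif_pos k]
  refine (inv_mul_eq_one.1 (Q.free _ y ?_)).symm
  rw [Q.mul, k.choose_spec, ← Q.mul, inv_mul_cancel, Q.one]

theorem Qt.p_h (Q : Qt n p h) (γ : G) (y : Z) : p (h γ y) = p y := ((Q.fib _ _).2 ⟨γ, rfl⟩).symm

/-- local sections -/
theorem Qt.sec (Q : Qt n p h) (y : Z) : ∃ s : X → Z, s (p y) = y ∧ ∀ᶠ x in 𝓝 (p y),
    ContMDiffAt 𝓘(ℂ, Cm n) 𝓘(ℂ, Cm n) ω s x ∧ p (s x) = x := by
  obtain ⟨Φ, hy, hΦ⟩ := Q.loc y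
  refine ⟨Φ.symm, by rw [hΦ hy]; exact Φ.left_inv hy, ?_⟩
  filter_upwards [Φ.open_target.mem_nhds (show p y ∈ Φ.target from hΦ hy ▸ Φ.map_source hy)]
    with x hx
  exact ⟨(Φ.contMDiffOn_invFun _ hx).contMDiffAt (Φ.open_target.mem_nhds hx),
    (hΦ (Φ.map_target hx)).trans (Φ.right_inv hx)⟩

/-- two local sections differ by a locally constant element -/
theorem Qt.two (Q : Qt n p h) {s s' : X → Z} (c : ContinuousAt s x) (c' : ContinuousAt s' x)
    (e : ∀ᶠ y in 𝓝 x, p (s y) = y) (e' : ∀ᶠ y in 𝓝 x, p (s' y) = y) :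
    ∃ γ, ∀ᶠ y in 𝓝 x, h γ (s y) = s' y := by
  obtain ⟨γ, hγ⟩ := (Q.fib _ _).1 (e.self_of_nhds.trans e'.self_of_nhds.symm)
  obtain ⟨Φ, hy, hΦ⟩ := Q.loc (s' x)
  refine ⟨γ, ?_⟩
  filter_upwards [e, e', c'.eventually (Φ.open_source.mem_nhds hy),
    ((Q.cont γ).continuousAt.comp c).eventually (Φ.open_source.mem_nhds (by
      rwa [comp_apply, hγ]))] with y a b d f
  exact Φ.injOn f d (((hΦ f).symm.trans ((Q.p_h γ _).trans (a.trans b.symm))).trans (hΦ d))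

/-- a singular weight with a factor of automorphy defines a positive line bundle on the quotient -/
theorem Qt.pos (Q : Qt n p h) {D : Set Z} (hD : Dense D) (inv : ∀ γ, ∀ y ∈ D, h γ y ∈ D)
    {J : G → Z → ℂ} (hJ : ∀ γ, ∀ y ∈ D, Hol n (J γ) y ∧ J γ y ≠ 0)
    (coc : ∀ γ δ, ∀ y ∈ D, J (δ * γ) y = J δ (h γ y) * J γ y) {Φ : Z → ℝ}
    (hΦ : ∀ γ, ∀ y ∈ D, Φ (h γ y) = Φ y + Real.log (‖J γ y‖ ^ 2))
    (loc : ∀ y₀, ∃ (γ : G) (τ : Z → ℂ) (ψ : Z → ℝ), ∀ᶠ y in 𝓝 (h γ y₀), Hol n τ y ∧ Spsh n ψ y ∧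
      (τ y ≠ 0 ↔ y ∈ D) ∧ (y ∈ D → Φ y = ψ y + Real.log (‖τ y‖ ^ 2))) :
    ∃ H : Bd X, IsLB n H ∧ P281Z.Pos n H := by
  have hp := Q.loc.contMDiff
  have d : ∀ y, p y ∈ p '' D ↔ y ∈ D := fun y => ⟨fun ⟨y', a, b⟩ =>
    let ⟨γ, k⟩ := (Q.fib _ _).1 b; k ▸ inv γ _ a, mem_image_of_mem p⟩
  have : ∀ x, ∃ (s : X → Z) (τ : Z → ℂ) (ψ : Z → ℝ), ∀ᶠ y in 𝓝 x,
      (ContMDiffAt 𝓘(ℂ, Cm n) 𝓘(ℂ, Cm n) ω s y ∧ p (s y) = y) ∧ Hol n τ (s y) ∧ Spsh n ψ (s y) ∧
      (τ (s y) ≠ 0 ↔ s y ∈ D) ∧ (s y ∈ D → Φ (s y) = ψ (s y) + Real.log (‖τ (s y)‖ ^ 2)) := by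
    intro x
    obtain ⟨y, rfl⟩ := Q.surj x
    obtain ⟨γ, τ, ψ, k⟩ := loc y
    obtain ⟨s, a, b⟩ := Q.sec (h γ y)
    rw [← a] at k
    rw [← Q.p_h γ]
    exact ⟨s, τ, ψ, b.and (b.self_of_nhds.1.continuousAt.eventually k)⟩
  choose s τ ψ k using this
  refine mkPos (Q.surj.denseRange.dense_image hp.continuous hD)
    (fun x => ⟨fun y => τ x (s x y), hol_comp (k x).self_of_nhds.1.1 (k x).self_of_nhds.2.1,
      (k x).mono fun y a => by rw [a.2.2.2.1, ← d, a.1.2]⟩)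
    (fun _ => isOpen_setOfPred_eventually_nhds) (fun x => ⟨x, k x⟩) (ψ := fun a y => ψ a (s a y))
    (fun a x ha => spsh_map ha.self_of_nhds.1.1 (hp _) (ha.mono fun _ k => k.1.2)
      ha.self_of_nhds.2.2.1)
    (g := fun a b y => τ b (s b y) / (τ a (s a y) * J (el h (s a y) (s b y)) (s a y)))
    (fun a b x hx ha hb => ?_) fun a b c x hx ha hb hc => ?_
  · obtain ⟨a1, a2, -, a3, a4⟩ := ha.self_of_nhds
    obtain ⟨b1, b2, -, b3, b4⟩ := hb.self_of_nhds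
    obtain ⟨γ, e⟩ := Q.two a1.1.continuousAt b1.1.continuousAt (ha.mono fun _ k => k.1.2)
      (hb.mono fun _ k => k.1.2)
    have a5 : s a x ∈ D := (d _).1 (a1.2.symm ▸ hx)
    have b5 : s b x ∈ D := (d _).1 (b1.2.symm ▸ hx)
    have e' : ∀ᶠ y in 𝓝 x, el h (s a y) (s b y) = γ := e.mono fun y k => k ▸ Q.el_eq γ _
    have n1 := a3.2 a5
    have n2 := b3.2 b5
    have n3 := (hJ γ _ a5).2
    refine ⟨Hol.congr (a := fun y => τ b (s b y) / (τ a (s a y) * J γ (s a y))) (fun c hc =>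
      (hol_comp b1.1 b2 c hc).fun_div ((hol_comp a1.1 a2 c hc).fun_mul
        (hol_comp a1.1 (hJ γ _ a5).1 c hc)) (by rw [hc.left_inv]; exact mul_ne_zero n1 n3))
      (e'.mono fun y k => by rw [k]), ?_, ?_⟩
    · rw [e'.self_of_nhds]
      exact div_ne_zero n2 (mul_ne_zero n1 n3)
    · have := hΦ γ _ a5
      rw [e.self_of_nhds, a4 a5, b4 b5] at this
      rw [e'.self_of_nhds, norm_div, norm_mul, div_pow, mul_pow, Real.log_div, Real.log_mul]
      · linarith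
      all_goals simp [n1, n2, n3]
  · obtain ⟨a1, -, -, a3, -⟩ := ha.self_of_nhds
    obtain ⟨b1, -, -, b3, -⟩ := hb.self_of_nhds
    obtain ⟨c1, -⟩ := hc.self_of_nhds
    obtain ⟨γ, e⟩ := (Q.fib _ _).1 (a1.2.trans b1.2.symm)
    obtain ⟨δ, e'⟩ := (Q.fib _ _).1 (b1.2.trans c1.2.symm)
    have a5 : s a x ∈ D := (d _).1 (a1.2.symm ▸ hx)
    have b5 : s b x ∈ D := (d _).1 (b1.2.symm ▸ hx)
    have n1 := a3.2 a5
    have n2 := b3.2 b5
    have n3 := (hJ γ _ a5).2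
    have n4 := (hJ δ _ b5).2
    have e1 : el h (s a x) (s b x) = γ := e ▸ Q.el_eq γ _
    have e2 : el h (s b x) (s c x) = δ := e' ▸ Q.el_eq δ _
    have e3 : el h (s a x) (s c x) = δ * γ := by rw [← e', ← e, ← Q.mul, Q.el_eq]
    rw [e1, e2, e3, coc γ δ _ a5, e]
    field_simp

end quo

end Vale.Agent.P300LB
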